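import Vale.Agent.P204.Gen.GeoLin

/-!
P247, pointwise algebra of a hypersymplectic triple `a, b, c` of two-forms on `ℝ⁴`: the complex
structure whose anti-invariant forms are spanned by `b` and `c`, signed so that `a` tames it. The
triples `φ, b, c` with `φ` taming it are hypersymplectic, and the invariant forms are orthogonal
to `b` and `c`.
-/

noncomputable section

open scoped ContDiff

namespace Vale.Agent.P247.Orth

open Vale.Agent.P204.Torus

/-- The swap of coordinates of a two-form. -/
def star' (b : Form) : Form := WithLp.toLp 2 ![b 3, b 4, b 5, b 0, b 1, b 2]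

lemma star_star (b : Form) : star' (star' b) = b := by
  ext k; fin_cases k <;> simp [star']

lemma q_star (a b : Form) : q (star' a) (star' b) = q a b := by
  simp [q, star']; ring

lemma iota_identity (a b : Form) (u : V) :
    iota (iota u a) (star' b) + iota (iota u b) (star' a) = -q a b • u := by
  funext i
  fin_cases i <;>
    simp [iota, ev_def, q, star', Vale.Agent.P204.Torus.e] <;> ring_nf

lemma iota_sq (b : Form) (u : V) : iota (iota u b) (star' b) = (-q b b / 2) • u := by
  have h := iota_identity b b u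
  rw [← two_smul ℝ] at h
  calc iota (iota u b) (star' b) = (1 / 2 : ℝ) • ((2 : ℝ) • iota (iota u b) (star' b)) := by
        rw [smul_smul]; norm_num
    _ = _ := by rw [h, smul_smul]; congr 1; ring

lemma iota_sq' (b : Form) (u : V) : iota (iota u (star' b)) b = (-q b b / 2) • u := by
  have h := iota_sq (star' b) u
  rwa [star_star, q_star] at h

lemma iota_add_form (u : V) (a b : Form) : iota u (a + b) = iota u a + iota u b := by
  funext j; simp [iota, ev_add]

lemma iota_smul_form (u : V) (r : ℝ) (a : Form) : iota u (r • a) = r • iota u a := by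
  funext j; simp [iota, ev_smul]

lemma iota_add_vec (u v : V) (a : Form) : iota (u + v) a = iota u a + iota v a := by
  funext j; simp [iota, ev_add_left]

lemma iota_smul_vec (r : ℝ) (u : V) (a : Form) : iota (r • u) a = r • iota u a := by
  funext j; simp [iota, ev_smul_left]

lemma ev_self (a : Form) (u : V) : ev a u u = 0 := by
  linarith [ev_skew a u u]

lemma pair_self_eq_zero {x : V} (h : pair x x = 0) : x = 0 :=
  funext fun i => mul_self_eq_zero.1 (le_antisymm
    ((Finset.single_le_sum (fun j _ => mul_self_nonneg (x j)) (Finset.mem_univ i)).trans h.le)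
    (mul_self_nonneg _))

lemma q_eq_zero_of_kernel {a : Form} {v : V} (hv : v ≠ 0) (h : iota v a = 0) : q a a = 0 := by
  have h1 := iota_sq a v
  rw [h] at h1
  have h2 : iota (0 : V) (star' a) = 0 := by funext j; simp [iota, ev_def]
  rw [h2] at h1
  rcases smul_eq_zero.1 h1.symm with h3 | h3
  · linarith
  · exact absurd h3 hv

lemma exists_kernel {a : Form} (h : q a a = 0) : ∃ v : V, v ≠ 0 ∧ iota v a = 0 := by
  by_cases hz : ∀ u, iota u (star' a) = 0
  · refine ⟨e 0, fun h0 => by simpa [e] using congrFun h0 0, ?_⟩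
    have ha : star' a = 0 := form_ext fun u w => by
      rw [← pair_iota, hz u]; simp [pair_def, ev_def]
    rw [← star_star a, ha]
    funext j; simp [iota, ev_def, star']
  · push Not at hz
    obtain ⟨u, hu⟩ := hz
    exact ⟨_, hu, by rw [iota_sq', h]; simp⟩

/-- No nonzero combination is degenerate. -/
def Aniso (a b c : Form) : Prop :=
  ∀ x y z : ℝ, q (x • a + y • b + z • c) (x • a + y • b + z • c) = 0 → x = 0 ∧ y = 0 ∧ z = 0

/-- The multiple of `c - μ b` with the square of `b`. -/
def partner (b c : Form) : Form :=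
  (|q b b| / Real.sqrt (q b b * q c c - q b c ^ 2)) • (c - (q b c / q b b) • b)

/-- The endomorphism `J` with `b (J u) w = C u w` for the partner `C`. -/
def J0 (b c : Form) : V →L[ℝ] V :=
  LinearMap.toContinuousLinearMap
    { toFun := fun u => (-2 / q b b) • iota (iota u (partner b c)) (star' b)
      map_add' := fun u v => by simp only [iota_add_vec, smul_add]
      map_smul' := fun r u => by simp only [iota_smul_vec, smul_comm r, RingHom.id_apply] }

lemma J0_apply (b c : Form) (u : V) :
    J0 b c u = (-2 / q b b) • iota (iota u (partner b c)) (star' b) := rfl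

/-- The sign of the value of `a` on the complex lines. -/
def sgn (a b c : Form) : ℝ := ev a (e 0) (J0 b c (e 0)) / |ev a (e 0) (J0 b c (e 0))|

/-- The complex structure of the pair `b, c` tamed by `a`. -/
def Jt (a b c : Form) : V →L[ℝ] V := sgn a b c • J0 b c

lemma Jt_apply (a b c : Form) (u : V) : Jt a b c u = sgn a b c • J0 b c u := rfl

variable {a b c : Form}

namespace Aniso

variable (h : Aniso a b c)
include h

lemma qb_ne : q b b ≠ 0 := fun h0 =>
  one_ne_zero (h 0 1 0 (by simpa using h0)).2.1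

lemma disc_pos : 0 < q b b * q c c - q b c ^ 2 := by
  by_contra hD
  push Not at hD
  set s := Real.sqrt (-(q b b * q c c - q b c ^ 2)) with hs
  have hs2 : s ^ 2 = -(q b b * q c c - q b c ^ 2) := Real.sq_sqrt (by linarith)
  refine h.qb_ne (h 0 (-q b c + s) (q b b) ?_).2.2
  simp only [zero_smul, zero_add, q_add_left, q_add_right, q_smul_left, q_smul_right, q_comm c b]
  linear_combination (q b b) * hs2

lemma q_partner : q b (partner b c) = 0 ∧ q (partner b c) (partner b c) = q b b := by
  have hb := h.qb_ne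
  have hD := h.disc_pos
  have e1 : q b (c - (q b c / q b b) • b) = 0 := by
    rw [sub_eq_add_neg, ← neg_smul, q_add_right, q_smul_right]
    field_simp
    ring
  refine ⟨by rw [partner, q_smul_right, e1, mul_zero], ?_⟩
  have e2 : q (c - (q b c / q b b) • b) (c - (q b c / q b b) • b) =
      (q b b * q c c - q b c ^ 2) / q b b := by
    simp only [sub_eq_add_neg, ← neg_smul, q_add_left, q_add_right, q_smul_left, q_smul_right,
      q_comm c b]
    field_simp
    ring
  rw [partner, q_smul_left, q_smul_right, e2, ← mul_assoc, div_mul_div_comm,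
    Real.mul_self_sqrt hD.le, abs_mul_abs_self]
  field_simp

lemma third : ∃ r m : ℝ, c = r • partner b c + m • b := by
  refine ⟨(|q b b| / Real.sqrt (q b b * q c c - q b c ^ 2))⁻¹, q b c / q b b, ?_⟩
  have : |q b b| / Real.sqrt (q b b * q c c - q b c ^ 2) ≠ 0 :=
    div_ne_zero (abs_ne_zero.2 h.qb_ne) (Real.sqrt_pos.2 h.disc_pos).ne'
  rw [partner, smul_smul, inv_mul_cancel₀ this, one_smul, sub_add_cancel]

lemma iota_J0 (u : V) : iota (J0 b c u) b = iota u (partner b c) := by
  have hb := h.qb_ne
  rw [J0_apply, iota_smul_vec, iota_sq', smul_smul,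
    show -2 / q b b * (-q b b / 2) = 1 by field_simp, one_smul]

lemma ev_J0 (u w : V) : ev b (J0 b c u) w = ev (partner b c) u w := by
  rw [← pair_iota, ← pair_iota, h.iota_J0]

lemma J0_sq (u : V) : J0 b c (J0 b c u) = -u := by
  obtain ⟨hbC, hCC⟩ := h.q_partner
  have hb := h.qb_ne
  set v := iota u (partner b c) with hv
  have e1 : iota (iota v (star' b)) (partner b c) = -iota (iota v (star' (partner b c))) b := by
    have h1 := iota_identity (star' b) (star' (partner b c)) v
    rw [star_star, star_star, q_star, hbC, neg_zero, zero_smul] at h1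
    exact eq_neg_of_add_eq_zero_left h1
  have e2 : iota v (star' (partner b c)) = (-q b b / 2) • u := by
    rw [hv, iota_sq, hCC]
  have hneg : ∀ (x : V) (α : Form), iota (-x) α = -iota x α := fun x α => by
    funext j; simp [iota, ev_def]; ring
  rw [J0_apply, J0_apply, ← hv]
  simp only [iota_smul_vec, e1, e2, hneg, smul_neg, iota_sq, smul_smul, neg_inj]
  rw [show -2 / q b b * (-2 / q b b * (-q b b / 2) * (-q b b / 2)) = 1 by field_simp, one_smul]

lemma ev_b_line (u : V) : ev b u (J0 b c u) = 0 := by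
  rw [ev_skew, h.ev_J0, ev_self, neg_zero]

lemma ev_C_line (u : V) : ev (partner b c) u (J0 b c u) = 0 := by
  rw [← h.ev_J0, ev_self]

lemma ev_c_line (u : V) : ev c u (J0 b c u) = 0 := by
  obtain ⟨r, m, e⟩ := h.third
  have key : ∀ w, ev c u w = r * ev (partner b c) u w + m * ev b u w := fun w =>
    (congrArg (fun β => ev β u w) e).trans (by rw [ev_add, ev_smul, ev_smul])
  rw [key, h.ev_C_line, h.ev_b_line, mul_zero, mul_zero, add_zero]

/-- The first form does not vanish on any complex line. -/
lemma ev_a_line {v : V} (hv : v ≠ 0) : ev a v (J0 b c v) ≠ 0 := by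
  intro h0
  set w := J0 b c v with hw
  let f : ((Fin 3 → ℝ) × (Fin 2 → ℝ)) →ₗ[ℝ] V :=
    { toFun := fun p => iota v (p.1 0 • a + p.1 1 • b + p.1 2 • c) + (p.2 0 • v + p.2 1 • w)
      map_add' := fun p p' => by
        simp only [Prod.fst_add, Prod.snd_add, Pi.add_apply, iota_add_form, iota_smul_form,
          add_smul]
        abel
      map_smul' := fun r p => by
        simp only [Prod.smul_fst, Prod.smul_snd, Pi.smul_apply, iota_add_form, iota_smul_form,
          smul_eq_mul, RingHom.id_apply, smul_add, smul_smul] }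
  have hf : Function.Injective f := by
    refine (injective_iff_map_eq_zero f).2 fun p hp => ?_
    set α := p.1 0 • a + p.1 1 • b + p.1 2 • c with hα
    set X := iota v α with hX
    have hp' : X + (p.2 0 • v + p.2 1 • w) = 0 := hp
    have h1 : ev α v v = 0 := ev_self _ _
    have h2 : ev α v w = 0 := by
      rw [hw] at h0 ⊢
      simp only [hα, ev_add, ev_smul, h0, h.ev_b_line v, h.ev_c_line v]
      ring
    have hXX : pair X X = 0 := by
      have e : X = -(p.2 0 • v + p.2 1 • w) := eq_neg_of_add_eq_zero_left hp'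
      have e' : pair X X = pair X (-(p.2 0 • v + p.2 1 • w)) := by rw [← e]
      rw [e', hX, pair_iota, ← neg_one_smul ℝ, ev_smul_right, ev_add_right, ev_smul_right,
        ev_smul_right, h1, h2]
      ring
    have hX0 : X = 0 := pair_self_eq_zero hXX
    rw [hX0, zero_add] at hp'
    obtain ⟨hx, hy, hz⟩ := h (p.1 0) (p.1 1) (p.1 2) (q_eq_zero_of_kernel hv hX0)
    have ht : p.2 1 = 0 := by
      by_contra ht
      set r := -(p.2 0) / p.2 1
      have hr : w = r • v := by
        have : p.2 1 • w = (-(p.2 0)) • v := by rw [neg_smul]; exact eq_neg_of_add_eq_zero_right hp'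
        calc w = (p.2 1)⁻¹ • (p.2 1 • w) := by rw [smul_smul, inv_mul_cancel₀ ht, one_smul]
          _ = r • v := by rw [this, smul_smul]; congr 1; simp only [r]; ring
      have h3 := h.J0_sq v
      rw [← hw, hr, map_smul, ← hw, hr, smul_smul] at h3
      have h4 : (r * r + 1) • v = 0 := by rw [add_smul, h3, one_smul, neg_add_cancel]
      rcases smul_eq_zero.1 h4 with h5 | h5
      · nlinarith [mul_self_nonneg r]
      · exact hv h5
    rw [ht, zero_smul, add_zero] at hp'
    have hs : p.2 0 = 0 := (smul_eq_zero.1 hp').resolve_right hv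
    refine Prod.ext (funext fun i => ?_) (funext fun i => ?_)
    · fin_cases i
      exacts [hx, hy, hz]
    · fin_cases i
      exacts [hs, ht]
  have := LinearMap.finrank_le_finrank_of_injective hf
  simp at this

lemma sgn_abs : sgn a b c * sgn a b c = 1 := by
  have h0 := h.ev_a_line (v := e 0) fun h0 => by simpa [e] using congrFun h0 0
  rw [sgn, div_mul_div_comm, abs_mul_abs_self, div_self (mul_ne_zero h0 h0)]

/-- The sign is that of every complex line. -/
lemma sgn_pos {v : V} (hv : v ≠ 0) : 0 < sgn a b c * ev a v (J0 b c v) := by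
  set g : V → ℝ := fun x => ev a x (J0 b c x)
  have he : (e 0 : V) ≠ 0 := fun h0 => by simpa [e] using congrFun h0 0
  have hne : ∀ x, x ≠ 0 → g x ≠ 0 := fun x hx => h.ev_a_line hx
  have key : ∀ x y : V, x ≠ 0 → y ≠ 0 → ¬ (0 < g x ∧ g y < 0) := by
    rintro x y hx hy ⟨hgx, hgy⟩
    set B := ev a x (J0 b c y) + ev a y (J0 b c x)
    have hexp : ∀ t : ℝ, g (x + t • y) = g x + B * t + g y * (t * t) := fun t => by
      simp only [g, B, map_add, map_smul, ev_add_left, ev_add_right, ev_smul_left, ev_smul_right]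
      ring
    have hdisc : 0 ≤ discrim (g y) B (g x) := by
      rw [discrim]
      nlinarith [mul_pos hgx (neg_pos.2 hgy), sq_nonneg B]
    obtain ⟨t, ht⟩ := exists_quadratic_eq_zero (b := B) (c := g x) hgy.ne
      ⟨Real.sqrt (discrim (g y) B (g x)), (Real.mul_self_sqrt hdisc).symm⟩
    by_cases hxy : x + t • y = 0
    · have h1 : g x = t ^ 2 * g y := by
        rw [show x = (-t) • y by rw [neg_smul]; exact eq_neg_of_add_eq_zero_left hxy]
        simp only [g, map_smul, ev_smul_left, ev_smul_right]
        ring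
      nlinarith [sq_nonneg t]
    · exact hne _ hxy (by rw [hexp]; linarith)
  show 0 < g (e 0) / |g (e 0)| * g v
  rcases (hne _ he).lt_or_gt with h1 | h1
  · have : g v < 0 := (hne _ hv).lt_or_gt.resolve_right fun h2 => key v (e 0) hv he ⟨h2, h1⟩
    rw [abs_of_neg h1, div_neg, div_self h1.ne]
    linarith
  · have : 0 < g v := (hne _ hv).lt_or_gt.resolve_left fun h2 => key (e 0) v he hv ⟨h1, h2⟩
    rw [abs_of_pos h1, div_self h1.ne', one_mul]
    exact this

lemma Jt_sq (u : V) : Jt a b c (Jt a b c u) = -u := by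
  rw [Jt_apply, Jt_apply, map_smul, smul_smul, h.sgn_abs, one_smul, h.J0_sq]

lemma Jt_tames {u : V} (hu : u ≠ 0) : 0 < ev a u (Jt a b c u) := by
  rw [Jt_apply, ev_smul_right]
  exact h.sgn_pos hu

/-- A form taming the structure completes the pair to a hypersymplectic triple. -/
lemma aniso_of_tames {φ : Form} (hφ : ∀ u, u ≠ 0 → 0 < ev φ u (Jt a b c u)) : Aniso φ b c := by
  intro x y z hq
  obtain ⟨v, hv, hk⟩ := exists_kernel hq
  have hx : x = 0 := by
    have h1 : ev (x • φ + y • b + z • c) v (Jt a b c v) = 0 := by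
      rw [← pair_iota, hk]; simp [pair_def]
    have h2 : ev b v (Jt a b c v) = 0 := by
      rw [Jt_apply, ev_smul_right, h.ev_b_line, mul_zero]
    have h3 : ev c v (Jt a b c v) = 0 := by
      rw [Jt_apply, ev_smul_right, h.ev_c_line, mul_zero]
    simp only [ev_add, ev_smul, h2, h3, mul_zero, add_zero] at h1
    exact (mul_eq_zero.1 h1).resolve_right (hφ v hv).ne'
  subst hx
  exact h 0 y z (by simpa using hq)

/-- Invariant forms are orthogonal to the pair. -/
lemma orth_of_invariant {α : Form}
    (hα : ∀ u w, ev α (Jt a b c u) (Jt a b c w) = ev α u w) : q α b = 0 ∧ q α c = 0 := by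
  have hJb : pull (Jt a b c) b = (-1 : ℝ) • b := form_ext fun u w => by
    rw [ev_pull, ev_smul, Jt_apply, Jt_apply, ev_smul_left, ev_smul_right, ← mul_assoc, h.sgn_abs,
      h.ev_J0, ev_skew, ← h.ev_J0, h.J0_sq, ← neg_one_smul ℝ w, ev_smul_left, ev_skew b w u]
    ring
  have hJC : pull (Jt a b c) (partner b c) = (-1 : ℝ) • partner b c := form_ext fun u w => by
    rw [ev_pull, ev_smul, Jt_apply, Jt_apply, ev_smul_left, ev_smul_right, ← mul_assoc, h.sgn_abs,
      ← h.ev_J0, h.J0_sq, ← neg_one_smul ℝ u, ev_smul_left, ev_skew b u, h.ev_J0,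
      ev_skew (partner b c) w u]
    ring
  have hdet : (Jt a b c).det = 1 := by
    have h1 := Vale.Agent.P204.Gen.q_pull (Jt a b c) b b
    rw [hJb, q_smul_left, q_smul_right] at h1
    exact mul_right_cancel₀ h.qb_ne (by linarith)
  have hself : pull (Jt a b c) α = α := form_ext fun u w => by rw [ev_pull, hα]
  have key : ∀ β, pull (Jt a b c) β = (-1 : ℝ) • β → q α β = 0 := fun β hβ => by
    have h1 := Vale.Agent.P204.Gen.q_pull (Jt a b c) α β
    rw [hself, hβ, hdet, q_smul_right] at h1
    linarith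
  obtain ⟨r, m, e⟩ := h.third
  refine ⟨key b hJb, ?_⟩
  rw [e, q_add_right, q_smul_right, q_smul_right, key b hJb, key _ hJC, mul_zero, mul_zero,
    add_zero]

end Aniso

/-! ## Change of coordinates -/

lemma aniso_pull {P : V →L[ℝ] V} (hP : P.det ≠ 0) (h : Aniso a b c) :
    Aniso (pull P a) (pull P b) (pull P c) := by
  intro x y z hq
  rw [← Vale.Agent.P204.Torus.pull_smul, ← Vale.Agent.P204.Torus.pull_smul,
    ← Vale.Agent.P204.Torus.pull_smul, ← Vale.Agent.P204.Torus.pull_add,
    ← Vale.Agent.P204.Torus.pull_add, Vale.Agent.P204.Gen.q_pull] at hq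
  exact h x y z ((mul_eq_zero.1 hq).resolve_left hP)

lemma partner_pull {P : V →L[ℝ] V} (hP : P.det ≠ 0) (b c : Form) :
    partner (pull P b) (pull P c) = pull P (partner b c) := by
  simp only [partner, Vale.Agent.P204.Gen.q_pull]
  rw [show P.det * q b b * (P.det * q c c) - (P.det * q b c) ^ 2 =
      P.det ^ 2 * (q b b * q c c - q b c ^ 2) by ring, Real.sqrt_mul (sq_nonneg _),
    Real.sqrt_sq_eq_abs, abs_mul, mul_div_mul_left _ _ (abs_ne_zero.2 hP), mul_div_mul_left _ _ hP,
    Vale.Agent.P204.Torus.pull_smul, Vale.Agent.P204.Torus.pull_sub,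
    Vale.Agent.P204.Torus.pull_smul]

lemma J0_pull {P Q : V →L[ℝ] V} (hP : P.det ≠ 0) (hPQ : ∀ x, P (Q x) = x) (h : Aniso a b c)
    (u : V) : J0 (pull P b) (pull P c) u = Q (J0 b c (P u)) := by
  have h' := aniso_pull hP h
  have hinj : ∀ x y : V, iota x (pull P b) = iota y (pull P b) → x = y := fun x y hxy => by
    have h1 := congrArg (fun v => iota v (star' (pull P b))) hxy
    simp only [iota_sq] at h1
    have h2 : -q (pull P b) (pull P b) / 2 ≠ 0 := by simpa using h'.qb_ne
    exact smul_right_injective V h2 h1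
  refine hinj _ _ (funext fun j => ?_)
  show ev _ _ _ = ev _ _ _
  rw [h'.ev_J0, partner_pull hP, ev_pull, ev_pull, hPQ, h.ev_J0]

lemma Jt_pull {P Q : V →L[ℝ] V} (hP : P.det ≠ 0) (hPQ : ∀ x, P (Q x) = x) (h : Aniso a b c)
    (u : V) : Jt (pull P a) (pull P b) (pull P c) u = Q (Jt a b c (P u)) := by
  have h' := aniso_pull hP h
  have he : (e 0 : V) ≠ 0 := fun h0 => by simpa [e] using congrFun h0 0
  have hPe : P (e 0) ≠ 0 := fun h0 => by
    have hd : LinearMap.ker (P : V →ₗ[ℝ] V) = ⊥ := by
      by_contra hk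
      exact hP (LinearMap.det_eq_zero_iff_ker_ne_bot.2 hk)
    exact he (LinearMap.ker_eq_bot.1 hd (by simpa using h0))
  have h1 := h'.sgn_pos he
  rw [J0_pull hP hPQ h, ev_pull, hPQ] at h1
  have h2 := h.sgn_pos hPe
  have hs : sgn (pull P a) (pull P b) (pull P c) = sgn a b c := by
    rcases mul_self_eq_one_iff.1 h.sgn_abs with e1 | e1 <;>
      rcases mul_self_eq_one_iff.1 h'.sgn_abs with e2 | e2 <;>
      rw [e1] at h2 ⊢ <;> rw [e2] at h1 ⊢ <;> linarith
  rw [Jt_apply, Jt_apply, map_smul, hs, J0_pull hP hPQ h]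

/-! ## Smoothness -/

lemma contDiff_ev {E : Type*} [NormedAddCommGroup E] [NormedSpace ℝ E] {s : Set E} {x : E}
    {f : E → Form} {g k : E → V} (hf : ContDiffWithinAt ℝ ∞ f s x)
    (hg : ContDiffWithinAt ℝ ∞ g s x) (hk : ContDiffWithinAt ℝ ∞ k s x) :
    ContDiffWithinAt ℝ ∞ (fun y => ev (f y) (g y) (k y)) s x := by
  have h1 := contDiffWithinAt_piLp 2 |>.1 hf
  have h2 := contDiffWithinAt_pi.1 hg
  have h3 := contDiffWithinAt_pi.1 hk
  simp only [ev]
  exact ContDiffWithinAt.sum fun i _ => (h1 i).mul (((h2 _).mul (h3 _)).sub ((h3 _).mul (h2 _)))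

/-- The complex structure depends smoothly on the triple. -/
lemma contDiffWithinAt_Jt {E : Type*} [NormedAddCommGroup E] [NormedSpace ℝ E] {s : Set E} {x : E}
    {fa fb fc : E → Form} (ha : ContDiffWithinAt ℝ ∞ fa s x) (hb : ContDiffWithinAt ℝ ∞ fb s x)
    (hc : ContDiffWithinAt ℝ ∞ fc s x) (h : Aniso (fa x) (fb x) (fc x)) :
    ContDiffWithinAt ℝ ∞ (fun y => Jt (fa y) (fb y) (fc y)) s x := by
  have hq : ∀ {f g : E → Form}, ContDiffWithinAt ℝ ∞ f s x → ContDiffWithinAt ℝ ∞ g s x →
      ContDiffWithinAt ℝ ∞ (fun y => q (f y) (g y)) s x := fun {f g} hf hg => by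
    have h1 := contDiffWithinAt_piLp 2 |>.1 hf
    have h2 := contDiffWithinAt_piLp 2 |>.1 hg
    exact ((((((h1 0).mul (h2 3)).add ((h1 1).mul (h2 4))).add ((h1 2).mul (h2 5))).add
      ((h1 3).mul (h2 0))).add ((h1 4).mul (h2 1))).add ((h1 5).mul (h2 2))
  have hbb := hq hb hb
  have hbne := h.qb_ne
  have hC : ContDiffWithinAt ℝ ∞ (fun y => partner (fb y) (fc y)) s x :=
    ((hbb.abs hbne).div ((((hbb.mul (hq hc hc)).sub ((hq hb hc).pow 2))).sqrt h.disc_pos.ne')
      (Real.sqrt_pos.2 h.disc_pos).ne').smul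
      (hc.sub (((hq hb hc).div hbb hbne).smul hb))
  have hst : ContDiffWithinAt ℝ ∞ (fun y => star' (fb y)) s x := by
    have h1 := contDiffWithinAt_piLp 2 |>.1 hb
    refine contDiffWithinAt_piLp 2 |>.2 fun k => ?_
    fin_cases k <;> simp only [star']
    exacts [h1 3, h1 4, h1 5, h1 0, h1 1, h1 2]
  have hJ : ∀ u, ContDiffWithinAt ℝ ∞ (fun y => J0 (fb y) (fc y) u) s x := fun u => by
    simp only [J0_apply]
    refine (contDiffWithinAt_const.div hbb hbne).smul (contDiffWithinAt_pi.2 fun j => ?_)
    exact contDiff_ev hst (contDiffWithinAt_pi.2 fun i =>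
      contDiff_ev hC contDiffWithinAt_const contDiffWithinAt_const) contDiffWithinAt_const
  have hg : ContDiffWithinAt ℝ ∞ (fun y => ev (fa y) (e 0) (J0 (fb y) (fc y) (e 0))) s x :=
    contDiff_ev ha contDiffWithinAt_const (hJ _)
  have hne : ev (fa x) (e 0) (J0 (fb x) (fc x) (e 0)) ≠ 0 :=
    h.ev_a_line fun h0 => by simpa [e] using congrFun h0 0
  have hs : ContDiffWithinAt ℝ ∞ (fun y => sgn (fa y) (fb y) (fc y)) s x :=
    hg.div (hg.abs hne) (abs_ne_zero.2 hne)
  refine hs.smul ?_
  have hsum : (fun y => J0 (fb y) (fc y)) = fun y => ∑ i : Fin 4,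
      ContinuousLinearMap.smulRightL ℝ V V (ContinuousLinearMap.proj i)
        (J0 (fb y) (fc y) (e i)) := funext fun y => ContinuousLinearMap.ext fun u => by
    conv_lhs => rw [show u = ∑ i, u i • e i by
      funext j; simp [e, Pi.single_apply, Finset.sum_apply]]
    simp only [map_sum, map_smul, sum_apply]
    rfl
  rw [hsum]
  exact ContDiffWithinAt.sum fun i _ =>
    (ContinuousLinearMap.smulRightL ℝ V V (ContinuousLinearMap.proj i)).contDiff.contDiffAt.comp_contDiffWithinAt
      x (hJ (e i))

end Vale.Agent.P247.Orth
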