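import Vale.Agent.P204.Gen.Statement

/-!
P247: hypersymplectic triples on a smooth four-manifold, their smooth paths, and orthogonality.
Two-forms are fields of bilinear forms on the tangent spaces, as in `P204.Gen.Statement`: smooth
and closed means so in every chart `chartAt`.
-/

open scoped Manifold

namespace Vale.Agent.P247.Orth

open Vale.Agent.P204.Gen

universe u

variable {X : Type u} [TopologicalSpace X] [ChartedSpace R4 X]

/-- A field of two-forms. -/
abbrev TwoForm (X : Type u) [TopologicalSpace X] [ChartedSpace R4 X] :=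
  (p : X) → Tan R4 p → Tan R4 p → ℝ

/-- The basis of the tangent space at `p` given by the model space. -/
noncomputable def std (p : X) (i : Fin 4) : Tan R4 p :=
  (EuclideanSpace.single i (1 : ℝ) : R4)

/-- The coefficient of `α ∧ β` on the basis `std p`. -/
noncomputable def wedgeCoeff (α β : TwoForm X) (p : X) : ℝ :=
  let a := fun i j => α p (std p i) (std p j)
  let b := fun i j => β p (std p i) (std p j)
  a 0 1 * b 2 3 + a 2 3 * b 0 1 + (a 0 2 * b 3 1 + a 3 1 * b 0 2) +
    (a 0 3 * b 1 2 + a 1 2 * b 0 3)

/-- The wedge square, on the basis `std p`, of the combination `∑ i, c i • ω i`. -/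
noncomputable def spanSquare (ω : Fin 3 → TwoForm X) (p : X) (c : Fin 3 → ℝ) : ℝ :=
  ∑ i, ∑ j, c i * c j * wedgeCoeff (ω i) (ω j) p

/-- A hypersymplectic triple: closed two-forms spanning at each point a three-dimensional space
which is definite for the wedge product. -/
structure Hypersymplectic (ω : Fin 3 → TwoForm X) : Prop where
  closed : ∀ i, ManifoldClosedForm (ω i)
  definite : ∀ p, ∃ s : ℝ, ∀ c : Fin 3 → ℝ, c ≠ 0 → 0 < s * spanSquare ω p c

/-- The wedge products of different forms of the triple vanish everywhere. -/
def Orthogonal (ω : Fin 3 → TwoForm X) : Prop :=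
  ∀ p i j, i ≠ j → wedgeCoeff (ω i) (ω j) p = 0

/-- The family is smooth in the parameter and the point. -/
def SmoothFamily (W : ℝ → Fin 3 → TwoForm X) : Prop :=
  ∀ i x v w, ContDiffOn ℝ (⊤ : ℕ∞) (fun z : ℝ × R4 => coordForm (W z.1 i) x z.2 v w)
    (Set.univ ×ˢ (chartAt R4 x).target)

/-- A smooth path of hypersymplectic triples starting at `ω`, all inducing the same orientation. -/
structure HypersymplecticPath (ω : Fin 3 → TwoForm X) (W : ℝ → Fin 3 → TwoForm X) : Prop where
  smooth : SmoothFamily W
  start : W 0 = ω
  hyper : ∀ t ∈ Set.Icc (0 : ℝ) 1, Hypersymplectic (W t)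
  orientation : ∀ t ∈ Set.Icc (0 : ℝ) 1, ∀ p, ∀ c : Fin 3 → ℝ, c ≠ 0 →
    0 < spanSquare ω p c * spanSquare (W t) p c

/-- On every closed four-manifold every hypersymplectic triple is joined by a smooth path of
hypersymplectic triples to one with pointwise orthogonal forms, the third form being constant
along the path. The cohomology classes of the other two may vary. -/
def PathToOrthogonal : Prop :=
  ∀ (X : Type u) [TopologicalSpace X] [T2Space X] [CompactSpace X] [ChartedSpace R4 X]
    [IsManifold (modelWithCornersSelf ℝ R4) (⊤ : ℕ∞) X] (ω : Fin 3 → TwoForm X),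
    Hypersymplectic ω → ∃ W, HypersymplecticPath ω W ∧ Orthogonal (W 1) ∧ ∀ t, W t 2 = ω 2

end Vale.Agent.P247.Orth
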