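import Vale.Agent.P247.Orth.Step

/-!
P247: every hypersymplectic triple on a closed four-manifold is joined by a smooth path of
hypersymplectic triples to one with pointwise orthogonal forms, when tamed almost complex
structures have compatible forms.
-/

noncomputable section

open scoped Manifold Topology
open Set

namespace Vale.Agent.P247.Orth

open Vale.Agent.P204.Torus Vale.Agent.P204.Gen Vale.Agent.P204.Four

universe u

variable {X : Type u} [TopologicalSpace X] [ChartedSpace R4 X]

/-- The affine combination of two fields of forms. -/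
def mix (t : ℝ) (α β : TwoForm X) : TwoForm X := fun p v w => (1 - t) * α p v w + t * β p v w

lemma formAt_mix (t : ℝ) (α β : TwoForm X) (p : X) :
    formAt (mix t α β) p = (1 - t) • formAt α p + t • formAt β p := by
  ext k
  simp [formAt, mix, ofSkew_apply]

lemma mix_zero (α β : TwoForm X) : mix 0 α β = α := by
  funext p v w; simp [mix]

lemma mix_one (α β : TwoForm X) : mix 1 α β = β := by
  funext p v w; simp [mix]

lemma closedForm_mix (t : ℝ) {α β : TwoForm X} (hα : ManifoldClosedForm α)
    (hβ : ManifoldClosedForm β) : ManifoldClosedForm (mix t α β) where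
  linear p w :=
    ⟨fun a b => by simp only [mix, (hα.linear p w).map_add, (hβ.linear p w).map_add]; ring,
      fun r a => by
        simp only [mix, (hα.linear p w).map_smul, (hβ.linear p w).map_smul, smul_eq_mul]; ring⟩
  skew p v w := by simp only [mix, hα.skew p v w, hβ.skew p v w]; ring
  smooth x v w :=
    (contDiffOn_const.mul (hα.smooth x v w)).add (contDiffOn_const.mul (hβ.smooth x v w))
  closed x y hy a b c := by
    have hd : ∀ {σ : TwoForm X}, ManifoldClosedForm σ → ∀ v w : R4,
        DifferentiableAt ℝ (fun z => coordForm σ x z v w) y := fun hσ v w =>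
      ((hσ.smooth x v w).contDiffAt ((chartAt R4 x).open_target.mem_nhds hy)).differentiableAt
        (by simp)
    have key : ∀ v w z : R4, fderiv ℝ (fun y => coordForm (mix t α β) x y v w) y z =
        (1 - t) * fderiv ℝ (fun y => coordForm α x y v w) y z +
          t * fderiv ℝ (fun y => coordForm β x y v w) y z := fun v w z => by
      rw [show (fun y => coordForm (mix t α β) x y v w) =
        fun y => (1 - t) * coordForm α x y v w + t * coordForm β x y v w from rfl,
        fderiv_fun_add ((hd hα v w).const_mul _) ((hd hβ v w).const_mul _),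
        fderiv_const_mul (hd hα v w), fderiv_const_mul (hd hβ v w)]
      simp
    simp only [extDeriv₂, key]
    have h1 := hα.closed x y hy a b c
    have h2 := hβ.closed x y hy a b c
    simp only [extDeriv₂] at h1 h2
    linear_combination (1 - t) * h1 + t * h2

variable [IsManifold (𝓡 4) ((⊤ : ℕ∞) : WithTop ℕ∞) X]

/-- The path. -/
def path (ω : Fin 3 → TwoForm X) (A B : TwoForm X) (t : ℝ) : Fin 3 → TwoForm X :=
  ![mix (Real.smoothTransition (2 * t)) (ω 0) A, mix (Real.smoothTransition (2 * t - 1)) (ω 1) B,
    ω 2]

theorem exists_path_of_compatible (hX : HasCompatibleForms R4 X) {ω : Fin 3 → TwoForm X}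
    (hω : Hypersymplectic ω) :
    ∃ W, HypersymplecticPath ω W ∧ Orthogonal (W 1) ∧ ∀ t, W t 2 = ω 2 := by
  have h0 := aniso_of_definite hω
  obtain ⟨A, hA, hAo, hA1⟩ :=
    exists_orthogonal_end hX (hω.closed 0) (hω.closed 1) (hω.closed 2) h0
  have h1 : ∀ p, Aniso (formAt (ω 1) p) (formAt A p) (formAt (ω 2) p) := fun p => by
    simpa using (hA1 p 1 (right_mem_Icc.2 zero_le_one)).swap
  obtain ⟨B, hB, hBo, hB1⟩ := exists_orthogonal_end hX (hω.closed 1) hA (hω.closed 2) h1
  set W := path ω A B
  have hW0 : W 0 = ω := by
    funext i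
    fin_cases i <;>
      simp [W, path, mix_zero, Real.smoothTransition.zero_of_nonpos]
  have han : ∀ t ∈ Icc (0 : ℝ) 1, ∀ p,
      Aniso (formAt (W t 0) p) (formAt (W t 1) p) (formAt (W t 2) p) := fun t _ p => by
    set a := Real.smoothTransition (2 * t) with ha
    set b := Real.smoothTransition (2 * t - 1) with hb
    have haI : a ∈ Icc (0 : ℝ) 1 :=
      ⟨Real.smoothTransition.nonneg _, Real.smoothTransition.le_one _⟩
    have hbI : b ∈ Icc (0 : ℝ) 1 :=
      ⟨Real.smoothTransition.nonneg _, Real.smoothTransition.le_one _⟩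
    show Aniso (formAt (mix a (ω 0) A) p) (formAt (mix b (ω 1) B) p) (formAt (ω 2) p)
    rcases le_or_gt t (1 / 2) with ht | ht
    · rw [show b = 0 from Real.smoothTransition.zero_of_nonpos (by linarith), mix_zero,
        formAt_mix]
      exact hA1 p a haI
    · rw [show a = 1 from Real.smoothTransition.one_of_one_le (by linarith), mix_one, formAt_mix]
      exact (hB1 p b hbI).swap
  refine ⟨W, ⟨?_, hW0, fun t ht => ⟨fun i => ?_, fun p => definite_of_aniso _ (han t ht p)⟩,
    fun t ht p c hc => ?_⟩, ?_, fun t => rfl⟩
  · intro i x v w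
    have hs : ∀ (g : ℝ → ℝ) (α β : TwoForm X), ContDiff ℝ ((⊤ : ℕ∞) : WithTop ℕ∞) g → ManifoldClosedForm α →
        ManifoldClosedForm β → ContDiffOn ℝ ((⊤ : ℕ∞) : WithTop ℕ∞) (fun z : ℝ × R4 =>
          (1 - g z.1) * coordForm α x z.2 v w + g z.1 * coordForm β x z.2 v w)
          (univ ×ˢ (chartAt R4 x).target) := fun g α β hg hα hβ => by
      have h2 : MapsTo (fun z : ℝ × R4 => z.2) (univ ×ˢ (chartAt R4 x).target)
          (chartAt R4 x).target := fun z hz => hz.2
      exact (((contDiff_const.sub (hg.comp contDiff_fst)).contDiffOn.mul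
        ((hα.smooth x v w).comp contDiff_snd.contDiffOn h2)).add
        ((hg.comp contDiff_fst).contDiffOn.mul
          ((hβ.smooth x v w).comp contDiff_snd.contDiffOn h2)))
    have hst : ContDiff ℝ ((⊤ : ℕ∞) : WithTop ℕ∞) Real.smoothTransition := Real.smoothTransition.contDiff
    fin_cases i
    · exact hs _ _ _ (hst.comp (contDiff_const.mul contDiff_id)) (hω.closed 0) hA
    · exact hs _ _ _ (hst.comp ((contDiff_const.mul contDiff_id).sub contDiff_const))
        (hω.closed 1) hB
    · exact (hω.closed 2).smooth x v w |>.comp contDiff_snd.contDiffOn fun z hz => hz.2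
  · fin_cases i
    exacts [closedForm_mix _ (hω.closed 0) hA, closedForm_mix _ (hω.closed 1) hB, hω.closed 2]
  · have hne : ∀ s ∈ Icc (0 : ℝ) 1, spanSquare ω p c * spanSquare (W s) p c ≠ 0 := fun s hs => by
      have key : ∀ σ : Fin 3 → TwoForm X,
          Aniso (formAt (σ 0) p) (formAt (σ 1) p) (formAt (σ 2) p) → spanSquare σ p c ≠ 0 :=
        fun σ hσ h0 => by
          rw [spanSquare_eq] at h0
          obtain ⟨h1, h2, h3⟩ := hσ _ _ _ h0
          exact hc (funext fun i => by fin_cases i <;> assumption)
      exact mul_ne_zero (key ω (h0 p)) (key _ (han s hs p))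
    have hcont : Continuous fun s => spanSquare ω p c * spanSquare (W s) p c := by
      have hst : Continuous Real.smoothTransition := Real.smoothTransition.continuous
      simp only [spanSquare_eq, W, path, Matrix.cons_val_zero, Matrix.cons_val_one,
        Matrix.cons_val, formAt_mix, q]
      fun_prop
    by_contra hle
    push Not at hle
    have hpos : 0 < spanSquare ω p c * spanSquare (W 0) p c := by
      rw [hW0]
      exact mul_self_pos.2 (left_ne_zero_of_mul (hne 0 (left_mem_Icc.2 zero_le_one)))
    obtain ⟨s, hs, hs0⟩ := intermediate_value_Icc' ht.1 hcont.continuousOn ⟨hle, hpos.le⟩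
    exact hne s ⟨hs.1, hs.2.trans ht.2⟩ hs0
  · have e : W 1 = ![A, B, ω 2] := by
      funext i
      fin_cases i <;> simp [W, path, mix_one, Real.smoothTransition.one_of_one_le,
        show (2 : ℝ) - 1 = 1 by norm_num]
    rw [e]
    intro p i j hij
    rw [wedgeCoeff_eq]
    fin_cases i <;> fin_cases j <;> simp at hij ⊢
    · rw [q_comm]; exact (hBo p).1
    · exact (hAo p).2
    · exact (hBo p).1
    · exact (hBo p).2
    · rw [q_comm]; exact (hAo p).2
    · rw [q_comm]; exact (hBo p).2

/-- The statement follows from the existence of compatible forms for tamed structures. -/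
theorem pathToOrthogonal_of (h : TamedToCompatible.{u}) : PathToOrthogonal.{u} :=
  fun X _ _ _ _ _ _ hω => exists_path_of_compatible (h X) hω

end Vale.Agent.P247.Orth
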