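import Vale.Agent.P204.Gen.Bridge
import Vale.Agent.P247.Orth.Alg
import Vale.Agent.P247.Orth.Defs

/-!
P247: the first form of a hypersymplectic triple can be moved, linearly, to one orthogonal to the
other two, when tamed almost complex structures have compatible forms.
-/

noncomputable section

open scoped Manifold Topology
open Set

namespace Vale.Agent.P247.Orth

open Vale.Agent.P204.Torus Vale.Agent.P204.Gen Vale.Agent.P204.Four

universe u

variable {X : Type u} [TopologicalSpace X] [ChartedSpace R4 X]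

/-- The coordinates of tangent vectors. -/
def tV {p : X} : Tan R4 p ≃L[ℝ] V := toV

/-- The coordinates of a two-form on the tangent space at a point. -/
def formAt (α : TwoForm X) (p : X) : Form := ofSkew fun a b => α p (tV.symm a) (tV.symm b)

lemma tV_symm_e (p : X) (i : Fin 4) : (tV (p := p)).symm (e i) = std p i := by
  show toV.symm (e i) = (EuclideanSpace.single i (1 : ℝ) : R4)
  ext j; simp [toV, e, EuclideanSpace.equiv]

lemma wedgeCoeff_eq (α β : TwoForm X) (p : X) : wedgeCoeff α β p = q (formAt α p) (formAt β p) := by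
  simp only [wedgeCoeff, q, formAt, ofSkew_apply, fi, se, tV_symm_e, Matrix.cons_val_zero,
    Matrix.cons_val_one, Matrix.cons_val]
  ring

lemma spanSquare_eq (ω : Fin 3 → TwoForm X) (p : X) (c : Fin 3 → ℝ) :
    spanSquare ω p c = q (c 0 • formAt (ω 0) p + c 1 • formAt (ω 1) p + c 2 • formAt (ω 2) p)
      (c 0 • formAt (ω 0) p + c 1 • formAt (ω 1) p + c 2 • formAt (ω 2) p) := by
  simp only [spanSquare, Fin.sum_univ_three, wedgeCoeff_eq, q_add_left, q_add_right, q_smul_left,
    q_smul_right]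
  ring

lemma ev_formAt {α : TwoForm X} (h : ManifoldClosedForm α) (p : X) (a b : V) :
    ev (formAt α p) a b = α p (tV.symm a) (tV.symm b) :=
  ev_ofSkew _ (fun _ _ => h.skew p _ _)
    (fun u u' v => by rw [map_add]; exact (h.linear p _).map_add _ _)
    (fun r u v => by rw [map_smul]; exact (h.linear p _).map_smul _ _) a b

lemma aniso_of_definite {ω : Fin 3 → TwoForm X} (h : Hypersymplectic ω) (p : X) :
    Aniso (formAt (ω 0) p) (formAt (ω 1) p) (formAt (ω 2) p) := by
  intro x y z hq
  by_contra hne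
  obtain ⟨s, hs⟩ := h.definite p
  have hc : (![x, y, z] : Fin 3 → ℝ) ≠ 0 := fun h0 => hne
    ⟨congrFun h0 0, congrFun h0 1, congrFun h0 2⟩
  have h1 := hs _ hc
  rw [spanSquare_eq] at h1
  simp only [Matrix.cons_val_zero, Matrix.cons_val_one, Matrix.cons_val] at h1
  rw [hq, mul_zero] at h1
  exact lt_irrefl _ h1

lemma Aniso.swap {a b c : Form} (h : Aniso a b c) : Aniso b a c := fun x y z hq => by
  obtain ⟨h1, h2, h3⟩ := h y x z (by rwa [add_comm (y • a) (x • b)])
  exact ⟨h2, h1, h3⟩

lemma definite_of_aniso (ω : Fin 3 → TwoForm X) {p : X}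
    (h : Aniso (formAt (ω 0) p) (formAt (ω 1) p) (formAt (ω 2) p)) :
    ∃ s : ℝ, ∀ c : Fin 3 → ℝ, c ≠ 0 → 0 < s * spanSquare ω p c := by
  have hne : ∀ c : Fin 3 → ℝ, c ≠ 0 → spanSquare ω p c ≠ 0 := fun c hc h0 => by
    rw [spanSquare_eq] at h0
    obtain ⟨h1, h2, h3⟩ := h _ _ _ h0
    exact hc (funext fun i => by fin_cases i <;> assumption)
  set c0 : Fin 3 → ℝ := ![1, 0, 0]
  have hc0 : c0 ≠ 0 := fun h0 => one_ne_zero (congrFun h0 0 : (1 : ℝ) = 0)
  refine ⟨spanSquare ω p c0, fun c hc => ?_⟩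
  by_contra hle
  push Not at hle
  have ha := hne c0 hc0
  set B := spanSquare ω p (c + c0) - spanSquare ω p c - spanSquare ω p c0 with hB
  have hexp : ∀ t : ℝ, spanSquare ω p (c + t • c0) =
      spanSquare ω p c0 * (t * t) + B * t + spanSquare ω p c := fun t => by
    simp only [hB, spanSquare, Fin.sum_univ_three, Pi.add_apply, Pi.smul_apply, smul_eq_mul]
    ring
  have hdisc : 0 ≤ discrim (spanSquare ω p c0) B (spanSquare ω p c) := by
    rw [discrim]; nlinarith [sq_nonneg B]
  obtain ⟨t, ht⟩ := exists_quadratic_eq_zero (b := B) (c := spanSquare ω p c) ha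
    ⟨Real.sqrt (discrim (spanSquare ω p c0) B (spanSquare ω p c)), (Real.mul_self_sqrt hdisc).symm⟩
  by_cases hz : c + t • c0 = 0
  · have hct : c = (-t) • c0 := by rw [neg_smul]; exact eq_neg_of_add_eq_zero_left hz
    have h1 : spanSquare ω p c = t * t * spanSquare ω p c0 := by
      rw [hct]
      simp only [spanSquare, Fin.sum_univ_three, Pi.smul_apply, smul_eq_mul]
      ring
    have ht0 : t ≠ 0 := fun h0 => hc (by simpa [h0] using hct)
    rw [h1] at hle
    nlinarith [mul_self_pos.2 ha, mul_self_pos.2 ht0, mul_pos (mul_self_pos.2 ht0) (mul_self_pos.2 ha)]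
  · exact hne _ hz (by rw [hexp]; exact ht)

lemma det_ne_zero_of_inverse {P Q : V →L[ℝ] V} (h : ∀ x, P (Q x) = x) : P.det ≠ 0 := fun h0 => by
  have h1 : (P : V →ₗ[ℝ] V).comp (Q : V →ₗ[ℝ] V) = LinearMap.id := LinearMap.ext h
  have h2 := congrArg LinearMap.det h1
  rw [LinearMap.det_comp, LinearMap.det_id, show LinearMap.det (P : V →ₗ[ℝ] V) = P.det from rfl,
    h0, zero_mul] at h2
  exact zero_ne_one h2

/-- The almost complex structure of a triple. -/
def structureOf (α β γ : TwoForm X) (p : X) (v : Tan R4 p) : Tan R4 p :=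
  tV.symm (Jt (formAt α p) (formAt β p) (formAt γ p) (tV v))

variable [IsManifold (𝓡 4) ((⊤ : ℕ∞) : WithTop ℕ∞) X]

lemma structureOf_acs {α β γ : TwoForm X} (hα : ManifoldClosedForm α) (hβ : ManifoldClosedForm β)
    (hγ : ManifoldClosedForm γ) (h : ∀ p, Aniso (formAt α p) (formAt β p) (formAt γ p)) :
    ManifoldACS (structureOf α β γ) := by
  have hlin : ∀ p, IsLinearMap ℝ (structureOf α β γ p) := fun p =>
    { map_add := fun v w => by simp only [structureOf, map_add]
      map_smul := fun r v => by simp only [structureOf, map_smul] }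
  refine ⟨hlin, fun p v => ?_, fun x v => ?_⟩
  · simp only [structureOf, tV.apply_symm_apply, (h p).Jt_sq, map_neg, tV.symm_apply_apply]
  set J : Endo X := endoOf (structureOf α β γ) hlin with hJ
  set φ := stdChart x with hφd
  have hφ : IsChart φ := isChart_stdChart x
  have hP : ∀ u ∈ φ.target,
      ∀ z, toV (P φ u (D φ (φ.symm u) (toV.symm z))) = z := fun u hu z => by
    have h1 := hφ.P_D (φ.map_target hu) (toV.symm z)
    rw [φ.right_inv hu] at h1
    rw [h1, toV.apply_symm_apply]
  have hrep : ∀ (σ : TwoForm X) (hσ : ManifoldClosedForm σ) (u : V),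
      formRep φ (bilinOf σ hσ.linear hσ.skew) u =
        pull ((toV : E4 →L[ℝ] V).comp (P φ u)) (formAt σ (φ.symm u)) := fun σ hσ u =>
    form_ext fun a b => by
      rw [ev_formRep (om := bilinOf σ hσ.linear hσ.skew) hσ.skew, ev_pull, ev_formAt hσ]
      show _ = σ _ (toV.symm (toV (P φ u a))) (toV.symm (toV (P φ u b)))
      rw [toV.symm_apply_apply, toV.symm_apply_apply]
      rfl
  have hsm : ∀ (σ : TwoForm X) (hσ : ManifoldClosedForm σ),
      ContDiffOn ℝ ((⊤ : ℕ∞) : WithTop ℕ∞) (formRep φ (bilinOf σ hσ.linear hσ.skew)) φ.target := fun σ hσ =>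
    ClosedTwoForm.contDiffOn_formRep
      ⟨hσ.skew, fun p a b => hσ.smooth p a b, fun p u hu a b c => hσ.closed p u hu a b c⟩ hφ
  have hJrep : ∀ u ∈ φ.target, endoRep φ J u =
      Jt (formRep φ (bilinOf α hα.linear hα.skew) u) (formRep φ (bilinOf β hβ.linear hβ.skew) u)
        (formRep φ (bilinOf γ hγ.linear hγ.skew) u) := fun u hu => by
    refine ContinuousLinearMap.ext fun a => ?_
    rw [hrep α hα, hrep β hβ, hrep γ hγ,
      Jt_pull (Q := (D φ (φ.symm u)).comp (toV.symm : V →L[ℝ] E4))
        (det_ne_zero_of_inverse (Q := (D φ (φ.symm u)).comp (toV.symm : V →L[ℝ] E4)) (hP u hu))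
        (hP u hu) (h (φ.symm u))]
    rfl
  have hJs : ContDiffOn ℝ ((⊤ : ℕ∞) : WithTop ℕ∞) (endoRep φ J) φ.target := by
    refine ContDiffOn.congr (fun u hu => ?_) hJrep
    refine contDiffWithinAt_Jt (hsm α hα u hu) (hsm β hβ u hu) (hsm γ hγ u hu) ?_
    rw [hrep α hα, hrep β hβ, hrep γ hγ]
    exact aniso_pull (det_ne_zero_of_inverse
      (Q := (D φ (φ.symm u)).comp (toV.symm : V →L[ℝ] E4)) (hP u hu)) (h _)
  refine (toV.symm.contDiff.comp_contDiffOn ((hJs.comp toV.contDiff.contDiffOn
    fun y hy => mem_stdChart_target hy).clm_apply (contDiffOn_const (c := toV v)))).congr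
    fun y hy => ?_
  show coordEnd (structureOf α β γ) x y v =
    toV.symm (endoRep (stdChart x) J (toV y) (toV v))
  rw [endoRep_stdChart J x hy, toV.symm_apply_apply]
  rfl



/-- The first form can be moved linearly to one orthogonal to the other two. -/
theorem exists_orthogonal_end (hX : HasCompatibleForms R4 X) {α β γ : TwoForm X}
    (hα : ManifoldClosedForm α) (hβ : ManifoldClosedForm β) (hγ : ManifoldClosedForm γ)
    (h : ∀ p, Aniso (formAt α p) (formAt β p) (formAt γ p)) :
    ∃ α', ManifoldClosedForm α' ∧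
      (∀ p, q (formAt α' p) (formAt β p) = 0 ∧ q (formAt α' p) (formAt γ p) = 0) ∧
      ∀ p, ∀ t ∈ Icc (0 : ℝ) 1,
        Aniso ((1 - t) • formAt α p + t • formAt α' p) (formAt β p) (formAt γ p) := by
  have htame : ManifoldTames (structureOf α β γ) α := fun p v hv => by
    have hv' : tV v ≠ 0 := fun h0 => hv (tV.map_eq_zero_iff.1 h0)
    have h1 := (h p).Jt_tames hv'
    rw [ev_formAt hα, tV.symm_apply_apply] at h1
    exact h1
  obtain ⟨α', hα', hpos, hinv⟩ := hX _ α (structureOf_acs hα hβ hγ h) hα htame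
  refine ⟨α', hα', fun p => (h p).orth_of_invariant fun u w => ?_, fun p t ht => ?_⟩
  · rw [ev_formAt hα', ev_formAt hα']
    have h1 := hinv p (tV.symm u) (tV.symm w)
    simp only [structureOf, tV.apply_symm_apply] at h1
    exact h1
  refine (h p).aniso_of_tames fun u hu => ?_
  rw [ev_add, ev_smul, ev_smul]
  have hu' : (tV (p := p)).symm u ≠ 0 := fun h0 => hu ((tV (p := p)).symm.map_eq_zero_iff.1 h0)
  have h1 := (h p).Jt_tames hu
  have h2 := hpos p _ hu'
  simp only [structureOf, tV.apply_symm_apply] at h2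
  rw [← ev_formAt hα' p] at h2
  rcases ht.2.eq_or_lt with e | e
  · subst e; linarith
  · nlinarith [mul_pos (show 0 < 1 - t by linarith) h1, mul_nonneg ht.1 h2.le]

end Vale.Agent.P247.Orth
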